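import Vale.Agent.P214.ABS.Defs
import Mathlib.Analysis.Calculus.MeanValue
import Mathlib.Analysis.Calculus.Deriv.MeanValue
import Mathlib.Analysis.SpecialFunctions.Sqrt
import Mathlib.Analysis.SpecialFunctions.Log.Deriv
import Mathlib.Analysis.Calculus.Deriv.Inv
import Mathlib.Analysis.Calculus.Deriv.Pow
import Mathlib.Analysis.Calculus.Deriv.Mul
import Mathlib.Tactic.Linarith
import Mathlib.Tactic.FieldSimp

/-!
# P214, target B, (P1): monotonicity for ONE fixed reference at a centre with power decay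

`W = (a - H) / t²` is almost nondecreasing; the curvature error at scale `t` is `q t = κ t + 4 p`
(`p` = slope of the reference at the centre), the absolute error is `Λ t²`.
`w_lower`: `W ≥ -Φ`, `Φ t = w₀ + 14 S (κ (t - t₁) + 4 p log (t/t₁)) + 2 Λ log (t/t₁)`.
`h_le`: `h s ≤ h r + (small) S` for `t₁ ≤ s ≤ r`.
-/

open Set Filter Topology

set_option linter.all false

namespace Vale.Agent.P214.BP1

open Vale.Agent.P214.ABS

/-- the differential inequality for `W`, cleared of denominators -/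
lemma ode_W {κ δ t H j a b H' a' w : ℝ} (ht : 0 < t) (hκ : 0 ≤ κ) (h : Ode κ δ t H j a b H' a')
    (hq : κ * t ≤ 1) (hw : 0 ≤ w) (haw : H - w ≤ a) :
    -(κ * t) * (7 * H + w) - 2 * δ ≤ t * a' - t * H' - 2 * (a - H) := by
  have hq0 : 0 ≤ κ * t := by positivity
  have hH := h.pos.le
  have hb := h.bnn
  set s := √(b * H) with hs
  have hs0 : 0 ≤ s := Real.sqrt_nonneg _
  have hss : s ^ 2 = b * H := Real.sq_sqrt (by positivity)
  have hjs : |j| ≤ s := by
    rw [hs]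
    exact Real.abs_le_sqrt h.cs
  have hj1 : j ≤ s := (le_abs_self j).trans hjs
  set D := b - 2 * s + H with hD
  have hD0 : 0 ≤ D := by
    have h1 : s = √b * √H := by rw [hs, Real.sqrt_mul hb]
    have h2 : D = (√b - √H) ^ 2 := by
      rw [hD, h1, sub_sq, Real.sq_sqrt hb, Real.sq_sqrt hH]; ring
    rw [h2]; positivity
  -- `s ≤ (3/2) H + D / 2`
  have hsH : s ≤ 3 / 2 * H + D / 2 := by
    have h1 : s = √b * √H := by rw [hs, Real.sqrt_mul hb]
    have h2 : D = (√b - √H) ^ 2 := by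
      rw [hD, h1, sub_sq, Real.sq_sqrt hb, Real.sq_sqrt hH]; ring
    have h3 : H = √H ^ 2 := (Real.sq_sqrt hH).symm
    rw [h2, h1]
    nlinarith [sq_nonneg (√b - √H - √H), h3, Real.sqrt_nonneg b, Real.sqrt_nonneg H]
  have hmax : max (j - a) 0 ≤ s + w := by
    refine max_le ?_ (by positivity)
    linarith
  have hda := h.da
  have hdH := (abs_le.1 h.dH).2
  have e1 : κ * t * (H + |j| + √(b * H) + max (j - a) 0) ≤ κ * t * (H + s + s + (s + w)) := by
    refine mul_le_mul_of_nonneg_left ?_ hq0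
    rw [← hs]
    linarith
  have e2 : κ * t * (H + s + s + (s + w)) + κ * t * H ≤ κ * t * (7 * H + w) + 2 * D := by
    have h1 : H + s + s + (s + w) + H ≤ 7 * H + w + 3 / 2 * D := by linarith
    have h2 := mul_le_mul_of_nonneg_left h1 hq0
    have h3 : κ * t * (3 / 2 * D) ≤ 2 * D := by nlinarith
    linarith
  have e3 : 2 * (a - j) + 2 * b - 2 * j - 2 * (a - H) = 2 * (b - 2 * j + H) := by ring
  have e4 : 2 * D ≤ 2 * (b - 2 * j + H) := by rw [hD]; linarith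
  linarith

/-- lower bound of the logarithmic derivative of `h` -/
lemma ode_h {κ δ t H j a b H' a' : ℝ} (h : Ode κ δ t H j a b H' a') :
    2 * (a - H) - 3 * (κ * t * H) - 3 * δ ≤ t * H' - 2 * H := by
  have h1 := (abs_le.1 h.dH).1
  have h2 := h.gap
  linarith

section

variable {κ p Λ S w₀ t₁ r : ℝ} {H j a b H' a' : ℝ → ℝ}

/-- the barrier -/
noncomputable def Phi (κ p Λ S w₀ t₁ t : ℝ) : ℝ :=
  w₀ + 14 * S * (κ * (t - t₁) + 4 * p * Real.log (t / t₁)) + 2 * Λ * Real.log (t / t₁)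

lemma hasDerivAt_Phi {t : ℝ} (ht₁ : 0 < t₁) (ht : 0 < t) :
    HasDerivAt (Phi κ p Λ S w₀ t₁) (14 * S * (κ + 4 * p / t) + 2 * Λ / t) t := by
  have h1 : HasDerivAt (fun t => Real.log (t / t₁)) (1 / t) t := by
    have h2 : HasDerivAt (fun t => t / t₁) (1 / t₁) t := by
      simpa using (hasDerivAt_id t).div_const t₁
    have h3 := h2.log (by positivity : t / t₁ ≠ 0)
    refine h3.congr_deriv ?_
    field_simp
  unfold Phi
  have h4 : HasDerivAt (fun t => κ * (t - t₁) + 4 * p * Real.log (t / t₁))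
      (κ + 4 * p * (1 / t)) t := by
    have h5 : HasDerivAt (fun t => κ * (t - t₁)) κ t := by
      simpa using ((hasDerivAt_id t).sub_const t₁).const_mul κ
    exact h5.add (h1.const_mul _)
  have h6 := ((h4.const_mul (14 * S)).const_add w₀).add (h1.const_mul (2 * Λ))
  refine h6.congr_deriv ?_
  ring

lemma Phi_mono (ht₁ : 0 < t₁) (hκ : 0 ≤ κ) (hp : 0 ≤ p) (hΛ : 0 ≤ Λ) (hS : 0 ≤ S) {s t : ℝ}
    (hs : t₁ ≤ s) (hst : s ≤ t) : Phi κ p Λ S w₀ t₁ s ≤ Phi κ p Λ S w₀ t₁ t := by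
  have hs0 : 0 < s := ht₁.trans_le hs
  have h1 : Real.log (s / t₁) ≤ Real.log (t / t₁) := by
    refine Real.log_le_log (by positivity) ?_
    gcongr
  unfold Phi
  gcongr

/-- **`W` is bounded from below.** -/
theorem w_lower (ht₁ : 0 < t₁) (hr : t₁ ≤ r) (hκ : 0 ≤ κ) (hp : 0 ≤ p) (hΛ : 0 ≤ Λ) (hS : 0 ≤ S)
    (hw₀ : 0 ≤ w₀)
    (hH : ∀ t ∈ Icc t₁ r, HasDerivAt H (H' t) t) (ha : ∀ t ∈ Icc t₁ r, HasDerivAt a (a' t) t)
    (hode : ∀ t ∈ Icc t₁ r, Ode (κ + 4 * p / t) (Λ * t ^ 2) t (H t) (j t) (a t) (b t) (H' t)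
      (a' t))
    (hq : κ * r + 4 * p ≤ 1 / 14) (hhS : ∀ t ∈ Icc t₁ r, H t ≤ S * t ^ 2)
    (hW0 : -(w₀ * t₁ ^ 2) ≤ a t₁ - H t₁) (hΦ : Phi κ p Λ S w₀ t₁ r ≤ S) :
    ∀ t ∈ Icc t₁ r, -(Phi κ p Λ S w₀ t₁ t) * t ^ 2 ≤ a t - H t := by
  have hpos : ∀ t ∈ Icc t₁ r, 0 < t := fun t ht => ht₁.trans_le ht.1
  -- the function `f = -W`
  set f : ℝ → ℝ := fun t => (H t - a t) / t ^ 2 with hf
  set f' : ℝ → ℝ := fun t => ((H' t - a' t) * t ^ 2 - (H t - a t) * (2 * t)) / (t ^ 2) ^ 2 with hf'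
  have hderiv : ∀ t ∈ Icc t₁ r, HasDerivAt f (f' t) t := by
    intro t ht
    have h1 : HasDerivAt (fun t : ℝ => t ^ 2) (2 * t) t := by
      simpa using hasDerivAt_pow 2 t
    exact ((hH t ht).sub (ha t ht)).div h1 (by have := hpos t ht; positivity)
  -- the key inequality
  have key : ∀ t ∈ Icc t₁ r, ∀ B : ℝ, 0 ≤ B → f t ≤ B →
      t * f' t ≤ (κ * t + 4 * p) * (7 * S + B) + 2 * Λ := by
    intro t ht B hB hfB
    have ht0 := hpos t ht
    have hqt : (κ + 4 * p / t) * t = κ * t + 4 * p := by field_simp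
    have hq1 : κ * t + 4 * p ≤ 1 := by
      have : κ * t ≤ κ * r := mul_le_mul_of_nonneg_left ht.2 hκ
      linarith
    have hq0 : 0 ≤ κ * t + 4 * p := by positivity
    have haw : H t - B * t ^ 2 ≤ a t := by
      have h1 : (H t - a t) / t ^ 2 ≤ B := hfB
      rw [div_le_iff₀ (by positivity)] at h1
      linarith
    have h1 := ode_W ht0 (by positivity) (hode t ht) (by rw [hqt]; exact hq1)
      (w := B * t ^ 2) (by positivity) haw
    rw [hqt] at h1
    have h2 : t * f' t = -(t * a' t - t * H' t - 2 * (a t - H t)) / t ^ 2 := by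
      rw [hf']
      field_simp
      ring
    rw [h2, div_le_iff₀ (by positivity)]
    have h3 : (κ * t + 4 * p) * (7 * H t + B * t ^ 2) ≤
        (κ * t + 4 * p) * (7 * (S * t ^ 2) + B * t ^ 2) := by
      have := hhS t ht
      gcongr
    nlinarith
  -- the barrier argument
  have hmain : ∀ ε : ℝ, 0 < ε → ∀ t ∈ Icc t₁ r, f t ≤ Phi κ p Λ S w₀ t₁ t + ε * t := by
    intro ε hε
    have hPhi0 : ∀ t ∈ Icc t₁ r, 0 ≤ Phi κ p Λ S w₀ t₁ t := by
      intro t ht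
      have h1 : Phi κ p Λ S w₀ t₁ t₁ ≤ Phi κ p Λ S w₀ t₁ t := Phi_mono ht₁ hκ hp hΛ hS le_rfl ht.1
      have h2 : Phi κ p Λ S w₀ t₁ t₁ = w₀ := by
        unfold Phi
        rw [div_self ht₁.ne', Real.log_one]; ring
      linarith
    refine image_le_of_deriv_right_lt_deriv_boundary' (f' := f')
      (B' := fun t => 14 * S * (κ + 4 * p / t) + 2 * Λ / t + ε) ?_ ?_ ?_ ?_ ?_ ?_
    · exact fun t ht => (hderiv t ht).continuousAt.continuousWithinAt
    · intro t ht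
      exact (hderiv t ⟨ht.1, ht.2.le⟩).hasDerivWithinAt
    · have h1 : f t₁ ≤ w₀ := by
        show (H t₁ - a t₁) / t₁ ^ 2 ≤ w₀
        rw [div_le_iff₀ (by positivity)]
        linarith
      have h2 : Phi κ p Λ S w₀ t₁ t₁ = w₀ := by
        unfold Phi
        rw [div_self ht₁.ne', Real.log_one]; ring
      rw [h2]
      have : 0 < ε * t₁ := by positivity
      linarith
    · intro t ht
      have h1 := (hasDerivAt_Phi (κ := κ) (p := p) (Λ := Λ) (S := S) (w₀ := w₀) ht₁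
        (hpos t ht)).continuousAt
      exact (h1.add (continuousAt_const.mul continuousAt_id)).continuousWithinAt
    · intro t ht
      have h1 := hasDerivAt_Phi (κ := κ) (p := p) (Λ := Λ) (S := S) (w₀ := w₀) ht₁
        (hpos t ⟨ht.1, ht.2.le⟩)
      have h2 : HasDerivAt (fun t => ε * t) ε t := by
        simpa using (hasDerivAt_id t).const_mul ε
      exact (h1.add h2).hasDerivWithinAt
    · intro t ht hft
      have ht' : t ∈ Icc t₁ r := ⟨ht.1, ht.2.le⟩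
      have ht0 := hpos t ht'
      have hB0 : 0 ≤ Phi κ p Λ S w₀ t₁ t + ε * t := by
        have := hPhi0 t ht'
        positivity
      have h1 := key t ht' _ hB0 hft.le
      have h2 : Phi κ p Λ S w₀ t₁ t ≤ S :=
        (Phi_mono ht₁ hκ hp hΛ hS ht.1 ht.2.le).trans hΦ
      have hq1 : κ * t + 4 * p ≤ 1 / 14 := by
        have : κ * t ≤ κ * r := mul_le_mul_of_nonneg_left ht.2.le hκ
        linarith
      have hq0 : 0 ≤ κ * t + 4 * p := by positivity
      have h3 : t * (14 * S * (κ + 4 * p / t) + 2 * Λ / t + ε) =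
          14 * S * (κ * t + 4 * p) + 2 * Λ + ε * t := by field_simp
      have h4 : (κ * t + 4 * p) * (7 * S + (Phi κ p Λ S w₀ t₁ t + ε * t)) + 2 * Λ <
          14 * S * (κ * t + 4 * p) + 2 * Λ + ε * t := by
        have h5 : (κ * t + 4 * p) * (7 * S + (Phi κ p Λ S w₀ t₁ t + ε * t)) ≤
            (κ * t + 4 * p) * (8 * S + ε * t) := by
          refine mul_le_mul_of_nonneg_left ?_ hq0
          linarith
        have h6 : (κ * t + 4 * p) * (ε * t) ≤ 1 / 14 * (ε * t) := by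
          have : 0 < ε * t := by positivity
          nlinarith
        have h7 : 0 < ε * t := by positivity
        have h8 : 0 ≤ (κ * t + 4 * p) * S := by positivity
        nlinarith
      have h9 : t * f' t < t * (14 * S * (κ + 4 * p / t) + 2 * Λ / t + ε) := by
        rw [h3]; linarith
      exact lt_of_mul_lt_mul_left h9 ht0.le
  intro t ht
  have ht0 := hpos t ht
  have h1 : f t ≤ Phi κ p Λ S w₀ t₁ t := by
    refine le_of_forall_pos_le_add fun ε hε => ?_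
    have h2 := hmain (ε / t) (by positivity) t ht
    rwa [div_mul_cancel₀ _ ht0.ne'] at h2
  have h2 : (H t - a t) / t ^ 2 ≤ Phi κ p Λ S w₀ t₁ t := h1
  rw [div_le_iff₀ (by positivity)] at h2
  linarith

/-- **`h` is almost nondecreasing.** -/
theorem h_le (ht₁ : 0 < t₁) (hr : t₁ ≤ r) (hκ : 0 ≤ κ) (hp : 0 ≤ p) (hΛ : 0 ≤ Λ) (hS : 0 ≤ S)
    (hw₀ : 0 ≤ w₀)
    (hH : ∀ t ∈ Icc t₁ r, HasDerivAt H (H' t) t) (ha : ∀ t ∈ Icc t₁ r, HasDerivAt a (a' t) t)
    (hode : ∀ t ∈ Icc t₁ r, Ode (κ + 4 * p / t) (Λ * t ^ 2) t (H t) (j t) (a t) (b t) (H' t)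
      (a' t))
    (hq : κ * r + 4 * p ≤ 1 / 14) (hhS : ∀ t ∈ Icc t₁ r, H t ≤ S * t ^ 2)
    (hW0 : -(w₀ * t₁ ^ 2) ≤ a t₁ - H t₁) (hΦ : Phi κ p Λ S w₀ t₁ r ≤ S) :
    ∀ s ∈ Icc t₁ r, H s / s ^ 2 ≤ H r / r ^ 2 +
      ((2 * w₀ + 112 * S * p * Real.log (r / t₁) + 4 * Λ * Real.log (r / t₁) + 12 * p * S + 3 * Λ) *
        Real.log (r / t₁) + 31 * S * (κ * r)) := by
  have hpos : ∀ t ∈ Icc t₁ r, 0 < t := fun t ht => ht₁.trans_le ht.1
  have hW := w_lower ht₁ hr hκ hp hΛ hS hw₀ hH ha hode hq hhS hW0 hΦ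
  set N := Real.log (r / t₁) with hN
  set A := 2 * w₀ + 112 * S * p * N + 4 * Λ * N + 12 * p * S + 3 * Λ with hA
  have hN0 : 0 ≤ N := Real.log_nonneg (by rwa [one_le_div₀ ht₁])
  have hA0 : 0 ≤ A := by positivity
  set g : ℝ → ℝ := fun t => H t / t ^ 2 + (A * Real.log (t / t₁) + 31 * S * κ * t) with hg
  have hderiv : ∀ t ∈ Icc t₁ r, HasDerivAt g
      ((H' t * t ^ 2 - H t * (2 * t)) / (t ^ 2) ^ 2 + (A * (1 / t) + 31 * S * κ)) t := by
    intro t ht
    have ht0 := hpos t ht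
    have h1 : HasDerivAt (fun t : ℝ => t ^ 2) (2 * t) t := by
      simpa using hasDerivAt_pow 2 t
    have h2 : HasDerivAt (fun t => Real.log (t / t₁)) (1 / t) t := by
      have h2 : HasDerivAt (fun t => t / t₁) (1 / t₁) t := by
        simpa using (hasDerivAt_id t).div_const t₁
      have h3 := h2.log (by positivity : t / t₁ ≠ 0)
      refine h3.congr_deriv ?_
      field_simp
    have h3 : HasDerivAt (fun t => 31 * S * κ * t) (31 * S * κ) t := by
      simpa using (hasDerivAt_id t).const_mul (31 * S * κ)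
    exact ((hH t ht).div h1 (by positivity)).add ((h2.const_mul A).add h3)
  have hnn : ∀ t ∈ Icc t₁ r, 0 ≤ (H' t * t ^ 2 - H t * (2 * t)) / (t ^ 2) ^ 2 +
      (A * (1 / t) + 31 * S * κ) := by
    intro t ht
    have ht0 := hpos t ht
    have h1 := ode_h (hode t ht)
    have h2 := hW t ht
    have hqt : (κ + 4 * p / t) * t = κ * t + 4 * p := by field_simp
    rw [hqt] at h1
    have hlog : Real.log (t / t₁) ≤ N := by
      refine Real.log_le_log (by positivity) ?_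
      have := ht.2
      gcongr
    have hlog0 : 0 ≤ Real.log (t / t₁) := Real.log_nonneg (by
      rw [one_le_div₀ ht₁]; exact ht.1)
    have h3 : Phi κ p Λ S w₀ t₁ t ≤ w₀ + 14 * S * (κ * t + 4 * p * N) + 2 * Λ * N := by
      unfold Phi
      gcongr
      linarith
    have h4 : (κ * t + 4 * p) * H t ≤ (κ * t + 4 * p) * (S * t ^ 2) := by
      have := hhS t ht
      gcongr
    have h5 : 0 ≤ t * H' t - 2 * H t + (A + 31 * S * κ * t) * t ^ 2 := by
      have h6 : (w₀ + 14 * S * (κ * t + 4 * p * N) + 2 * Λ * N) * t ^ 2 ≥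
          Phi κ p Λ S w₀ t₁ t * t ^ 2 := by gcongr
      have h7 : (A + 31 * S * κ * t) * t ^ 2 = 2 * ((w₀ + 14 * S * (κ * t + 4 * p * N) +
          2 * Λ * N) * t ^ 2) + 3 * ((κ * t + 4 * p) * (S * t ^ 2)) + 3 * (Λ * t ^ 2) := by
        rw [hA]; ring
      rw [h7]
      linarith
    have h6 : (H' t * t ^ 2 - H t * (2 * t)) / (t ^ 2) ^ 2 + (A * (1 / t) + 31 * S * κ) =
        (t * H' t - 2 * H t + (A + 31 * S * κ * t) * t ^ 2) / t ^ 3 := by
      field_simp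
    rw [h6]
    positivity
  have hmono : MonotoneOn g (Icc t₁ r) := by
    refine monotoneOn_of_deriv_nonneg (convex_Icc t₁ r) ?_ ?_ ?_
    · exact fun t ht => (hderiv t ht).continuousAt.continuousWithinAt
    · intro t ht
      rw [interior_Icc] at ht
      exact (hderiv t ⟨ht.1.le, ht.2.le⟩).differentiableAt.differentiableWithinAt
    · intro t ht
      rw [interior_Icc] at ht
      have ht' : t ∈ Icc t₁ r := ⟨ht.1.le, ht.2.le⟩
      rw [(hderiv t ht').deriv]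
      exact hnn t ht'
  intro s hs
  have h1 := hmono hs (right_mem_Icc.2 hr) hs.2
  have h2 : 0 ≤ A * Real.log (s / t₁) := mul_nonneg hA0 (Real.log_nonneg (by
    rw [one_le_div₀ ht₁]; exact hs.1))
  have h3 : 0 ≤ 31 * S * κ * s := by
    have := hpos s hs
    positivity
  have h4 : g s = H s / s ^ 2 + (A * Real.log (s / t₁) + 31 * S * κ * s) := rfl
  have h5 : g r = H r / r ^ 2 + (A * N + 31 * S * κ * r) := rfl
  rw [h4, h5] at h1
  have h6 : 31 * S * κ * r = 31 * S * (κ * r) := by ring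
  linarith

/-- **(P1), the abstract claim**: with errors small with respect to the number of scales,
`h s ≤ h r + S / 8` for `t₁ ≤ s ≤ r`. -/
theorem claim {N : ℝ} (ht₁ : 0 < t₁) (hr : t₁ ≤ r) (hκ : 0 ≤ κ) (hp : 0 ≤ p) (hΛ : 0 ≤ Λ)
    (hS : 0 ≤ S) (hw₀ : 0 ≤ w₀)
    (hH : ∀ t ∈ Icc t₁ r, HasDerivAt H (H' t) t) (ha : ∀ t ∈ Icc t₁ r, HasDerivAt a (a' t) t)
    (hode : ∀ t ∈ Icc t₁ r, Ode (κ + 4 * p / t) (Λ * t ^ 2) t (H t) (j t) (a t) (b t) (H' t)
      (a' t))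
    (hhS : ∀ t ∈ Icc t₁ r, H t ≤ S * t ^ 2)
    (hW0 : -(w₀ * t₁ ^ 2) ≤ a t₁ - H t₁)
    (hN1 : 1 ≤ N) (hN : Real.log (r / t₁) ≤ N) (hκr : κ * r ≤ 1 / 1000)
    (hpN : p * N ^ 2 ≤ 1 / 4000) (hwN : w₀ * N ≤ S / 64) (hΛN : Λ * N ^ 2 ≤ S / 256) :
    (∀ t ∈ Icc t₁ r, -(S / 8) * t ^ 2 ≤ a t - H t) ∧
    ∀ s ∈ Icc t₁ r, H s / s ^ 2 ≤ H r / r ^ 2 + S / 8 := by
  set L := Real.log (r / t₁) with hL
  have hL0 : 0 ≤ L := Real.log_nonneg (by rwa [one_le_div₀ ht₁])
  have hNN : N ≤ N ^ 2 := by nlinarith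
  have hp1 : p * N ≤ 1 / 4000 := le_trans (mul_le_mul_of_nonneg_left hNN hp) hpN
  have hp0 : p ≤ 1 / 4000 := le_trans (by nlinarith) hp1
  have hΛ1 : Λ * N ≤ S / 256 := le_trans (mul_le_mul_of_nonneg_left hNN hΛ) hΛN
  have hΛ0 : Λ ≤ S / 256 := le_trans (by nlinarith) hΛ1
  have hw1 : w₀ ≤ S / 64 := le_trans (by nlinarith) hwN
  have hLN : L ^ 2 ≤ N ^ 2 := pow_le_pow_left₀ hL0 hN 2
  have e1 : Phi κ p Λ S w₀ t₁ r ≤ S / 8 := by
    unfold Phi
    rw [← hL]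
    have h1 : κ * (r - t₁) ≤ 1 / 1000 := by nlinarith
    have h2 : 4 * p * L ≤ 1 / 1000 := by nlinarith
    have h3 : 2 * Λ * L ≤ S / 128 := by nlinarith
    have h4 : 14 * S * (κ * (r - t₁) + 4 * p * L) ≤ 14 * S * (1 / 1000 + 1 / 1000) := by
      gcongr
    linarith
  have hq : κ * r + 4 * p ≤ 1 / 14 := by linarith
  refine ⟨fun t ht => ?_, fun s hs => ?_⟩
  · have h1 := w_lower ht₁ hr hκ hp hΛ hS hw₀ hH ha hode hq hhS hW0 (e1.trans (by linarith)) t ht
    have h2 : Phi κ p Λ S w₀ t₁ t ≤ S / 8 := (Phi_mono ht₁ hκ hp hΛ hS ht.1 ht.2).trans e1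
    have h3 : Phi κ p Λ S w₀ t₁ t * t ^ 2 ≤ S / 8 * t ^ 2 := by gcongr
    linarith
  · have h1 := h_le ht₁ hr hκ hp hΛ hS hw₀ hH ha hode hq hhS hW0 (e1.trans (by linarith)) s hs
    rw [← hL] at h1
    have h2 : w₀ * L ≤ S / 64 := le_trans (mul_le_mul_of_nonneg_left hN hw₀) hwN
    have h3 : p * L ^ 2 ≤ 1 / 4000 := le_trans (mul_le_mul_of_nonneg_left hLN hp) hpN
    have h4 : Λ * L ^ 2 ≤ S / 256 := le_trans (mul_le_mul_of_nonneg_left hLN hΛ) hΛN
    have h5 : p * L ≤ 1 / 4000 := le_trans (mul_le_mul_of_nonneg_left hN hp) hp1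
    have h6 : Λ * L ≤ S / 256 := le_trans (mul_le_mul_of_nonneg_left hN hΛ) hΛ1
    have h7 : (2 * w₀ + 112 * S * p * L + 4 * Λ * L + 12 * p * S + 3 * Λ) * L + 31 * S * (κ * r) =
        2 * (w₀ * L) + 112 * S * (p * L ^ 2) + 4 * (Λ * L ^ 2) + 12 * S * (p * L) + 3 * (Λ * L) +
        31 * S * (κ * r) := by ring
    rw [h7] at h1
    have h8 : 112 * S * (p * L ^ 2) ≤ 112 * S * (1 / 4000) := by gcongr
    have h9 : 12 * S * (p * L) ≤ 12 * S * (1 / 4000) := by gcongr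
    have h10 : 31 * S * (κ * r) ≤ 31 * S * (1 / 1000) := by gcongr
    linarith

end

end Vale.Agent.P214.BP1
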